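import Mathlib
import Vale.Agent.P111.Main

/-!
The cotype-cotype implication for spaces whose bounded approximation has subexponential rank,
and the finite-dimensional estimate behind it.
-/

namespace Vale.Agent.Results.P111.SubexpBAP

open Vale.Agent.P111

universe u

/-- Spaces with subexponentially uniform BAP and with dual of finite cotype contain no `ℓ₁ⁿ`
uniformly; in finite dimension `n` is at most polylogarithmic in the dimension. -/
theorem result :
    (∀ (X : Type u) [NormedAddCommGroup X] [NormedSpace ℝ X] (r C lam : ℝ) (f : ℕ → ℕ),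
      2 ≤ r → 0 ≤ C →
      (∀ (s : ℕ) (y : Fin s → StrongDual ℝ X),
        (∑ i, ‖y i‖ ^ r) ^ (1 / r) ≤ C * Real.sqrt (((2 : ℝ) ^ s)⁻¹ *
          ∑ η : Fin s → Bool, ‖∑ i, (if η i then (1 : ℝ) else -1) • y i‖ ^ 2)) →
      (∀ (n : ℕ) (x : Fin n → X) (d : ℝ), 0 < d → ∃ T : X →L[ℝ] X, ‖T‖ ≤ lam ∧
        FiniteDimensional ℝ (LinearMap.range (T : X →ₗ[ℝ] X)) ∧
        Module.finrank ℝ (LinearMap.range (T : X →ₗ[ℝ] X)) ≤ f n ∧ ∀ i, ‖T (x i) - x i‖ ≤ d) →
      (∀ ε : ℝ, 0 < ε → ∀ n₀ : ℕ, ∃ n, n₀ ≤ n ∧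
        Real.log ((f n : ℝ) + 1) ≤ ε * (n : ℝ) ^ (1 / (2 * (r - 1)))) →
      ¬ ∃ L : ℝ, ∀ n : ℕ, ∃ x : Fin n → X, (∀ i, ‖x i‖ ≤ 1) ∧
        ∀ a : Fin n → ℝ, ∑ i, |a i| ≤ L * ‖∑ i, a i • x i‖) ∧
    (∀ (E : Type u) [NormedAddCommGroup E] [NormedSpace ℝ E] [FiniteDimensional ℝ E]
      (r C L : ℝ) (n : ℕ) (x : Fin n → E),
      2 ≤ r → 0 ≤ C → 0 ≤ L → 0 < n →
      (∀ (s : ℕ) (y : Fin s → StrongDual ℝ E),
        (∑ i, ‖y i‖ ^ r) ^ (1 / r) ≤ C * Real.sqrt (((2 : ℝ) ^ s)⁻¹ *
          ∑ η : Fin s → Bool, ‖∑ i, (if η i then (1 : ℝ) else -1) • y i‖ ^ 2)) →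
      (∀ i, ‖x i‖ ≤ 1) → (∀ a : Fin n → ℝ, ∑ i, |a i| ≤ L * ‖∑ i, a i • x i‖) →
      Real.sqrt n ≤ 4 * C * L *
        (32 * C * L * ((Nat.clog 2 (Module.finrank ℝ E) + 1 : ℕ) : ℝ)) ^ (r - 1)) := by
  refine ⟨?_, ?_⟩
  · intro X _ _ r C lam f hr hC hcot hap hgrow
    rintro ⟨L₀, hL₀⟩
    have hcot' : Cot (StrongDual ℝ X) r C := fun s y => hcot s y
    set L := max L₀ 1 with hLdef
    have hLpos : 0 < L := lt_of_lt_of_le one_pos (le_max_right _ _)
    set L' := 2 * L * |lam| with hL'def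
    have hL'0 : 0 ≤ L' := by positivity
    set Q := 4 * C * L' * (32 * C * L' * 6) ^ (r - 1) with hQ
    have hα : 0 < 1 / (2 * (r - 1)) := by
      have : 0 < r - 1 := by linarith
      positivity
    -- small `ε`
    obtain ⟨ε, hε, hεQ⟩ : ∃ ε : ℝ, 0 < ε ∧ Q * ε ^ (r - 1) < 1 := by
      have hQ0 : 0 ≤ Q := by positivity
      refine ⟨(1 / (Q + 1)) ^ (1 / (r - 1)), by positivity, ?_⟩
      rw [← Real.rpow_mul (by positivity), one_div_mul_cancel (by linarith), Real.rpow_one,
        mul_one_div, div_lt_one (by positivity)]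
      linarith
    obtain ⟨n₀, hn₀⟩ := exists_nat_ge ((1 / ε) ^ (2 * (r - 1)))
    obtain ⟨n, hn, hlog⟩ := hgrow ε hε (max n₀ 1)
    have hn1 : 0 < n := lt_of_lt_of_le one_pos ((le_max_right _ _).trans hn)
    have hbig : 1 ≤ ε * (n : ℝ) ^ (1 / (2 * (r - 1))) := by
      have h1 : (1 / ε) ^ (2 * (r - 1)) ≤ (n : ℝ) :=
        hn₀.trans (by exact_mod_cast (le_max_left _ _).trans hn)
      have h2 := Real.rpow_le_rpow (by positivity) h1 hα.le
      have h3 : 2 * (r - 1) ≠ 0 := by
        have : (0 : ℝ) < r - 1 := by linarith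
        positivity
      rw [← Real.rpow_mul (by positivity), mul_one_div_cancel h3, Real.rpow_one,
        div_le_iff₀' hε] at h2
      exact h2
    obtain ⟨x, hx, hlow⟩ := hL₀ n
    obtain ⟨T, hT, hfd, hrank, happ⟩ := hap n x (1 / (2 * L)) (by positivity)
    have hlam : 0 ≤ lam := (norm_nonneg _).trans hT
    have hlowT : ∀ a : Fin n → ℝ, ∑ i, |a i| ≤ 2 * L * ‖∑ i, a i • T (x i)‖ := by
      intro a
      have h1 : ∑ i, |a i| ≤ L * ‖∑ i, a i • x i‖ :=
        (hlow a).trans (mul_le_mul_of_nonneg_right (le_max_left _ _) (norm_nonneg _))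
      have h2 : ‖∑ i, a i • x i‖ ≤ ‖∑ i, a i • T (x i)‖ + (∑ i, |a i|) * (1 / (2 * L)) := by
        have e : ∑ i, a i • x i = ∑ i, a i • T (x i) - ∑ i, a i • (T (x i) - x i) := by
          rw [← Finset.sum_sub_distrib]
          exact Finset.sum_congr rfl fun i _ => by rw [smul_sub, sub_sub_cancel]
        rw [e, Finset.sum_mul]
        refine (norm_sub_le _ _).trans (add_le_add le_rfl ?_)
        refine (norm_sum_le _ _).trans (Finset.sum_le_sum fun i _ => ?_)
        rw [norm_smul, Real.norm_eq_abs]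
        exact mul_le_mul_of_nonneg_left (happ i) (abs_nonneg _)
      have h3 := mul_le_mul_of_nonneg_left h2 hLpos.le
      have h4 : L * ((∑ i, |a i|) * (1 / (2 * L))) = (∑ i, |a i|) / 2 := by field_simp
      nlinarith
    have hb := rank_bound r C (2 * L) lam hr hC hcot' (by positivity) hn1 x hx T hT hlowT
    set N : ℝ := ((Nat.clog 2 (Module.finrank ℝ (LinearMap.range (T : X →ₗ[ℝ] X))) + 1 : ℕ) : ℝ)
    have hN : N ≤ 6 * (ε * (n : ℝ) ^ (1 / (2 * (r - 1)))) := by
      have h1 : N ≤ ((Nat.clog 2 (f n + 1) + 1 : ℕ) : ℝ) := by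
        exact Nat.cast_le.2 (Nat.add_le_add_right (Nat.clog_mono_right 2 (by omega)) 1)
      have h2 : (Nat.clog 2 (f n + 1) : ℝ) ≤ 2 * Real.log ((f n : ℝ) + 1) + 1 := by
        rcases Nat.eq_zero_or_pos (f n) with h0 | h0
        · simp [h0]
        · have h' : 2 ^ (Nat.clog 2 (f n + 1)).pred < f n + 1 :=
            Nat.pow_pred_clog_lt_self (by norm_num) (by omega)
          have h'' : ((2 : ℝ) ^ (Nat.clog 2 (f n + 1)).pred) ≤ (f n : ℝ) + 1 := by
            exact_mod_cast h'.le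
          have h3 := Real.log_le_log (by positivity) h''
          rw [Real.log_pow] at h3
          have h4 : (Nat.clog 2 (f n + 1) : ℝ) ≤ ((Nat.clog 2 (f n + 1)).pred : ℝ) + 1 := by
            have h5 : Nat.clog 2 (f n + 1) ≤ (Nat.clog 2 (f n + 1)).pred + 1 := by
              cases Nat.clog 2 (f n + 1) <;> simp
            exact_mod_cast h5
          have h6 := Real.log_two_gt_d9
          have h7 : (0 : ℝ) ≤ ((Nat.clog 2 (f n + 1)).pred : ℝ) := Nat.cast_nonneg _
          nlinarith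
      push_cast at h1
      linarith
    have hlamabs : |lam| = lam := abs_of_nonneg hlam
    have hfin : Real.sqrt n ≤ Q * ε ^ (r - 1) * Real.sqrt n := by
      refine hb.trans ?_
      rw [show 2 * L * lam = L' by rw [hL'def, hlamabs]]
      calc 4 * C * L' * (32 * C * L' * N) ^ (r - 1)
          ≤ 4 * C * L' * (32 * C * L' * 6 * ε * (n : ℝ) ^ (1 / (2 * (r - 1)))) ^ (r - 1) := by
            refine mul_le_mul_of_nonneg_left (Real.rpow_le_rpow (by positivity) ?_ (by linarith))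
              (by positivity)
            have := mul_le_mul_of_nonneg_left hN (show 0 ≤ 32 * C * L' by positivity)
            linarith
        _ = Q * ε ^ (r - 1) * Real.sqrt n := by
            rw [Real.mul_rpow (by positivity) (by positivity),
              Real.mul_rpow (by positivity) hε.le, ← Real.rpow_mul (by positivity), hQ,
              Real.sqrt_eq_rpow]
            have : 1 / (2 * (r - 1)) * (r - 1) = 1 / 2 := by
              have : r - 1 ≠ 0 := by linarith
              field_simp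
            rw [this]; ring
    have hs : 0 < Real.sqrt n := Real.sqrt_pos.2 (by exact_mod_cast hn1)
    have := mul_lt_mul_of_pos_right hεQ hs
    linarith
  · intro E _ _ _ r C L n x hr hC hL hn hcot hx hlow
    have hcot' : Cot (StrongDual ℝ E) r C := fun s y => hcot s y
    have hb := rank_bound r C L 1 hr hC hcot' hL hn x hx (ContinuousLinearMap.id ℝ E)
      ContinuousLinearMap.norm_id_le (by simpa using hlow)
    rw [mul_one] at hb
    refine hb.trans ?_
    have hf : Module.finrank ℝ (LinearMap.range ((ContinuousLinearMap.id ℝ E : E →L[ℝ] E) : E →ₗ[ℝ] E))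
        ≤ Module.finrank ℝ E := Submodule.finrank_le _
    gcongr
    linarith

end Vale.Agent.Results.P111.SubexpBAP
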