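import Vale.Agent.P111.Riesz

namespace Vale.Agent.Results.P111.TypeQuotient

open Vale.Agent.P111
open scoped BigOperators

/-- Extensions of spaces whose duals contain `ℓ∞ⁿ` uniformly, by quotients of type `p > 1`,
have duals without finite cotype. -/
theorem result : ∀ {X : Type} [NormedAddCommGroup X] [NormedSpace ℝ X] {lam p T : ℝ}, 1 < p →
    (∀ n : ℕ, ∃ (E : Submodule ℝ X) (φ : Fin n → StrongDual ℝ E),
      HasTypeWith (X ⧸ E) p T ∧ (∀ i, 1 ≤ lam * ‖φ i‖) ∧
      ∀ a : Fin n → Bool, ‖∑ i, sgn (a i) • φ i‖ ≤ 1) →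
    ∀ q : ℝ, 0 < q → ¬ HasCotype (StrongDual ℝ X) q :=
  fun hp h => no_finite_cotype hp h

end Vale.Agent.Results.P111.TypeQuotient
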